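import Mathlib.Data.Set.Card
import Mathlib.Data.Fintype.Basic
import Mathlib.Data.Real.Basic

namespace Vale.Agent.P038.Dense

/-- No loops and no opposite arcs. -/
def Oriented {V : Type} (A : V → V → Prop) : Prop := ∀ u v, A u v → ¬ A v u

/-- Out-neighbourhood. -/
def first {V : Type} (A : V → V → Prop) (v : V) : Set V := {u | A v u}

/-- Vertices at directed distance exactly two. -/
def second {V : Type} (A : V → V → Prop) (v : V) : Set V :=
  {w | w ≠ v ∧ ¬ A v w ∧ ∃ u, A v u ∧ A u w}

/-- A vertex as asked for by the conjecture. -/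
def Good {V : Type} (A : V → V → Prop) (v : V) : Prop :=
  (first A v).ncard ≤ (second A v).ncard

/-- The second neighbourhood conjecture. -/
def Conjecture : Prop :=
  ∀ (V : Type) [Fintype V] [Nonempty V] (A : V → V → Prop), Oriented A → ∃ v, Good A v

/-- The conjecture for oriented graphs of minimum out-degree at least (1/2 - ε) n. -/
def DenseConjecture (ε : ℝ) : Prop :=
  ∀ (V : Type) [Fintype V] [Nonempty V] (A : V → V → Prop), Oriented A →
    (∀ v, (1 / 2 - ε) * (Fintype.card V : ℝ) ≤ ((first A v).ncard : ℝ)) → ∃ v, Good A v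

end Vale.Agent.P038.Dense
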