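import Mathlib
import Vale.Agent.P038.Dense.Defs

namespace Vale.Agent.P038.Dense

open Finset
open scoped Classical

noncomputable section

variable {V : Type} [Fintype V] (A : V → V → Prop)

def outS (v : V) : Finset V := univ.filter (fun u => A v u)
def inS (x : V) : Finset V := univ.filter (fun u => A u x)
def secS (v : V) : Finset V :=
  univ.filter (fun w => w ≠ v ∧ ¬ A v w ∧ ∃ u, A v u ∧ A u w)
def farS (v : V) : Finset V :=
  univ.filter (fun w => w ≠ v ∧ ¬ A v w ∧ ¬ ∃ u, A v u ∧ A u w)
def roomS (x : V) : Finset V := univ \ insert x (inS A x)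
def gapS (x v : V) : Finset V := (roomS A x).erase v \ outS A v

theorem first_card (v : V) : (first A v).ncard = (outS A v).card := by
  rw [← Set.ncard_coe_finset]; congr 1; ext u; simp [first, outS]

theorem second_card (v : V) : (second A v).ncard = (secS A v).card := by
  rw [← Set.ncard_coe_finset]; congr 1; ext u; simp [second, secS]

variable {A}

theorem irr (hA : Oriented A) (v : V) : ¬ A v v := fun h => hA v v h h

theorem far_add (hA : Oriented A) (v : V) :
    (farS A v).card + (secS A v).card + (outS A v).card + 1 = Fintype.card V := by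
  have h1 : farS A v ∪ secS A v = univ \ insert v (outS A v) := by
    ext w; simp only [farS, secS, outS, mem_union, mem_filter, mem_univ, true_and, mem_sdiff,
      mem_insert]; tauto
  have h2 : Disjoint (farS A v) (secS A v) := by
    rw [disjoint_left]; intro w hw hw'
    simp only [farS, secS, mem_filter, mem_univ, true_and] at hw hw'
    exact hw.2.2 hw'.2.2
  have h3 := congrArg Finset.card h1
  rw [card_union_of_disjoint h2, card_sdiff_of_subset (subset_univ _), card_insert_of_notMem (by
    simpa [outS] using irr hA v), card_univ] at h3
  have : (insert v (outS A v)).card ≤ Fintype.card V := card_le_univ _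
  rw [card_insert_of_notMem (by simpa [outS] using irr hA v)] at this
  omega

theorem room_card (hA : Oriented A) (x : V) :
    (roomS A x).card + (inS A x).card + 1 = Fintype.card V := by
  have h := card_sdiff_add_card_eq_card (subset_univ (insert x (inS A x)))
  rw [card_insert_of_notMem (by simpa [inS] using irr hA x), card_univ] at h
  unfold roomS; omega

theorem out_room (hA : Oriented A) (x : V) : outS A x ⊆ roomS A x := by
  intro u hu
  simp only [outS, roomS, inS, mem_filter, mem_univ, true_and, mem_sdiff, mem_insert] at hu ⊢
  rintro (rfl | h)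
  · exact irr hA u hu
  · exact hA _ _ hu h

theorem sum_in_eq : ∑ x, (inS A x).card = ∑ v, (outS A v).card := by
  simp only [inS, outS, card_filter]
  exact sum_comm

theorem two_out_le (hA : Oriented A) :
    2 * ∑ v, (outS A v).card + Fintype.card V ≤ Fintype.card V * Fintype.card V := by
  have h : ∀ v, (outS A v).card + (inS A v).card + 1 ≤ Fintype.card V := by
    intro v
    have := room_card hA v
    have := card_le_card (out_room hA v)
    omega
  have := sum_le_sum (fun v (_ : v ∈ (univ : Finset V)) => h v)
  simp only [sum_add_distrib, sum_in_eq, sum_const, card_univ, smul_eq_mul, mul_one] at this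
  omega

theorem gap_card {x v : V} (hA : Oriented A) (hx : x ∈ farS A v) :
    (gapS A x v).card + (outS A v).card + 1 = (roomS A x).card ∧
      v ∈ roomS A x := by
  simp only [farS, mem_filter, mem_univ, true_and] at hx
  obtain ⟨hne, hnA, hp⟩ := hx
  have hv : v ∈ roomS A x := by
    simp only [roomS, inS, mem_sdiff, mem_univ, mem_insert, mem_filter, true_and]
    rintro (rfl | h)
    · exact hne rfl
    · exact hnA h
  have hs : outS A v ⊆ (roomS A x).erase v := by
    intro u hu
    simp only [outS, mem_filter, mem_univ, true_and] at hu
    simp only [roomS, inS, mem_erase, mem_sdiff, mem_univ, mem_insert, mem_filter, true_and]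
    refine ⟨fun e => irr hA v (e ▸ hu), ?_⟩
    rintro (rfl | h)
    · exact hnA hu
    · exact hp ⟨u, hu, h⟩
  have h := card_sdiff_add_card_eq_card hs
  rw [card_erase_of_mem hv] at h
  have : 0 < (roomS A x).card := card_pos.mpr ⟨v, hv⟩
  refine ⟨?_, hv⟩
  unfold gapS; omega

/-- In any set, every unordered pair contributes a missed out-neighbour to one of its ends. -/
theorem pairs_le (hA : Oriented A) (T : Finset V) :
    T.card * T.card ≤ T.card + 2 * ∑ v ∈ T, (T.filter (fun y => y ≠ v ∧ ¬ A v y)).card := by
  have key : ∀ v ∈ T, T.card ≤ 1 + (T.filter (fun y => y ≠ v ∧ ¬ A v y)).card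
      + (T.filter (fun y => v ≠ y ∧ ¬ A y v)).card := by
    intro v hv
    have : T ⊆ {v} ∪ T.filter (fun y => y ≠ v ∧ ¬ A v y)
        ∪ T.filter (fun y => v ≠ y ∧ ¬ A y v) := by
      intro y hy
      simp only [mem_union, mem_singleton, mem_filter]
      by_cases e : y = v
      · exact Or.inl (Or.inl e)
      · by_cases a : A v y
        · exact Or.inr ⟨hy, fun e' => e e'.symm, hA _ _ a⟩
        · exact Or.inl (Or.inr ⟨hy, e, a⟩)
    refine (card_le_card this).trans ((card_union_le _ _).trans ?_)
    refine Nat.add_le_add_right ((card_union_le _ _).trans ?_) _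
    simp
  have h := sum_le_sum key
  have e : ∑ v ∈ T, (T.filter (fun y => v ≠ y ∧ ¬ A y v)).card
      = ∑ v ∈ T, (T.filter (fun y => y ≠ v ∧ ¬ A v y)).card := by
    simp only [card_filter]; exact sum_comm
  simp only [sum_add_distrib, sum_const, smul_eq_mul, mul_one, e] at h
  omega

/-- The set of missed vertices inside T lies in the gap. -/
theorem inner_le_gap {T : Finset V} {x v : V} (hA : Oriented A)
    (hT : ∀ w ∈ T, x ∈ farS A w) :
    T.filter (fun y => y ≠ v ∧ ¬ A v y) ⊆ gapS A x v := by
  intro y hy
  simp only [mem_filter] at hy
  have := (gap_card hA (hT y hy.1)).2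
  simp only [gapS, outS, mem_sdiff, mem_erase, mem_filter, mem_univ, true_and]
  exact ⟨⟨hy.2.1, this⟩, hy.2.2⟩

theorem near_tournament [Nonempty V] (hA : Oriented A)
    (h : ∀ v, Fintype.card V ≤ 2 * (first A v).ncard + 2) : ∃ v, Good A v := by
  by_contra hc
  simp only [not_exists, Good, not_le, first_card, second_card] at hc
  simp only [first_card] at h
  obtain ⟨v0, -, hmin⟩ := exists_min_image (univ : Finset V) (fun v => (outS A v).card)
    univ_nonempty
  set d := (outS A v0).card with hd
  let T : V → Finset V := fun x => univ.filter (fun v => x ∈ farS A v)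
  have hT : ∀ x, (T x).card + (if (T x).card = 0 then 0 else 1) + 2 * d
      ≤ 2 * (roomS A x).card := by
    intro x
    have hr : d ≤ (roomS A x).card :=
      (hmin x (mem_univ _)).trans (card_le_card (out_room hA x))
    split_ifs with hz
    · omega
    have hp := pairs_le hA (T x)
    have hg : ∀ v ∈ T x, ((T x).filter (fun y => y ≠ v ∧ ¬ A v y)).card + d + 1
        ≤ (roomS A x).card := by
      intro v hv
      have h1 := card_le_card (inner_le_gap (v := v) hA
        (T := T x) (fun w hw => (mem_filter.mp hw).2))
      have h2 := (gap_card hA (mem_filter.mp hv).2).1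
      have h3 : d ≤ (outS A v).card := hmin v (mem_univ _)
      omega
    have hs := sum_le_sum hg
    simp only [sum_add_distrib, sum_const, smul_eq_mul, mul_one] at hs
    have : (T x).card * ((T x).card + 1 + 2 * d) ≤ (T x).card * (2 * (roomS A x).card) := by
      nlinarith
    exact Nat.le_of_mul_le_mul_left this (by omega)
  have hsum := sum_le_sum (fun x (_ : x ∈ (univ : Finset V)) => hT x)
  simp only [sum_add_distrib, sum_const, card_univ, smul_eq_mul, ← mul_sum] at hsum
  have hroom : ∑ x, (roomS A x).card + ∑ v, (outS A v).card + Fintype.card V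
      = Fintype.card V * Fintype.card V := by
    have := sum_congr rfl (fun x (_ : x ∈ (univ : Finset V)) => room_card hA x)
    simp only [sum_add_distrib, sum_in_eq, sum_const, card_univ, smul_eq_mul, mul_one] at this
    exact this
  have hTX : ∑ x, (T x).card = ∑ v, (farS A v).card := by
    simp only [T, card_filter]; rw [sum_comm]
    refine sum_congr rfl fun v _ => ?_
    rw [← card_filter]; congr 1; ext y; simp
  have hX : Fintype.card V * Fintype.card V
      ≤ ∑ v, (farS A v).card + 2 * ∑ v, (outS A v).card := by
    have : ∀ v, Fintype.card V ≤ (farS A v).card + 2 * (outS A v).card := fun v => by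
      have := far_add hA v; have := hc v; omega
    have := sum_le_sum (fun v (_ : v ∈ (univ : Finset V)) => this v)
    simpa [sum_add_distrib, ← mul_sum] using this
  have hn : Fintype.card V * Fintype.card V ≤ Fintype.card V * (2 * d + 2) :=
    Nat.mul_le_mul le_rfl (h v0)
  rw [Nat.mul_add] at hn
  have hP : ∑ x, (if (T x).card = 0 then 0 else 1) = 0 := by omega
  have hz : ∀ x, (T x).card = 0 := fun x => by
    have := (sum_eq_zero_iff.mp hP) x (mem_univ _)
    by_contra hne; simp [hne] at this
  have h0 : ∑ x, (T x).card = 0 := sum_eq_zero (fun x _ => hz x)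
  have := two_out_le hA
  have : 0 < Fintype.card V := Fintype.card_pos
  omega

/-- A vertex of small out-degree inside a four-set reaches one missed vertex in two steps. -/
theorem inner_path (hA : Oriented A) {T : Finset V}
    (hout : ∀ v ∈ T, ∃ w ∈ T, A v w) {v : V} (hv : v ∈ T)
    (h2 : (T.filter (fun w => A v w)).card ≤ 2) :
    ∃ y ∈ T, y ≠ v ∧ ¬ A v y ∧ ∃ w ∈ T, A v w ∧ A w y := by
  by_contra hc
  have cl : ∀ w ∈ T, A v w → ∀ u ∈ T, A w u → A v u := by
    intro w hw hvw u hu hwu
    by_contra hn
    exact hc ⟨u, hu, fun e => hA _ _ hvw (e ▸ hwu), hn, w, hw, hvw, hwu⟩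
  obtain ⟨a, ha, hva⟩ := hout v hv
  obtain ⟨b, hb, hab⟩ := hout a ha
  have hvb := cl a ha hva b hb hab
  obtain ⟨c, hcT, hbc⟩ := hout b hb
  have hvc := cl b hb hvb c hcT hbc
  have hs : ({a, b, c} : Finset V) ⊆ T.filter (fun w => A v w) := by
    intro u hu; simp only [mem_insert, mem_singleton] at hu
    rcases hu with rfl | rfl | rfl <;> simp [*]
  have hab' : a ≠ b := fun e => irr hA b (e ▸ hab)
  have hbc' : b ≠ c := fun e => irr hA c (e ▸ hbc)
  have hac' : a ≠ c := fun e => hA _ _ hab (e.symm ▸ hbc)
  have := card_le_card hs
  rw [card_insert_of_notMem (by simp [hab', hac']), card_pair hbc'] at this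
  omega

theorem regular_near [Nonempty V] (hA : Oriented A) (d : ℕ)
    (ho : ∀ v, (first A v).ncard = d) (hi : ∀ v, {u | A u v}.ncard = d)
    (hn : Fintype.card V ≤ 2 * d + 4) : ∃ v, Good A v := by
  by_cases hsmall : Fintype.card V ≤ 2 * d + 2
  · exact near_tournament hA (fun v => by rw [ho]; exact hsmall)
  by_contra hc
  simp only [not_exists, Good, not_le, first_card, second_card] at hc
  simp only [first_card] at ho
  have hi' : ∀ v, (inS A v).card = d := fun v => by
    rw [← hi v, ← Set.ncard_coe_finset]; congr 1; ext u; simp [inS]
  set n := Fintype.card V with hndef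
  obtain ⟨k, hk⟩ : ∃ k, n = 2 * d + k := ⟨n - 2 * d, by omega⟩
  have hX : ∀ v, k ≤ (farS A v).card := fun v => by
    have := far_add hA v; have := hc v; have := ho v; omega
  choose R hRs hRc using fun v => exists_subset_card_eq (hX v)
  let T : V → Finset V := fun x => univ.filter (fun v => x ∈ R v)
  let G : V → V → ℕ := fun x v => (R v ∩ gapS A x v).card
  have hTfar : ∀ x, ∀ v ∈ T x, x ∈ farS A v := fun x v hv => hRs v (mem_filter.mp hv).2
  have hgap : ∀ x, ∀ v ∈ T x, (gapS A x v).card + 2 = k := fun x v hv => by
    have := (gap_card hA (hTfar x v hv)).1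
    have := room_card hA x; have := ho v; have := hi' x; omega
  have hTsum : ∑ x, (T x).card = n * k := by
    simp only [T, card_filter]; rw [sum_comm]
    rw [sum_congr rfl (fun v _ => show (∑ x, if x ∈ R v then 1 else 0) = k by
      rw [← card_filter]; simpa using hRc v)]
    simp [n]
  have hGsum : n * (k * k) ≤ n * k + 2 * ∑ x, ∑ v ∈ T x, G x v := by
    have e : ∑ x, ∑ v ∈ T x, G x v = ∑ v, ∑ x ∈ R v, G x v := by
      refine sum_comm' ?_
      intro x v; simp [T]
    have hv : ∀ v, k * k ≤ k + 2 * ∑ x ∈ R v, G x v := by
      intro v
      have h1 := pairs_le (A := fun a b => A b a) (fun a b h => hA b a h) (R v)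
      rw [hRc] at h1
      refine h1.trans (Nat.add_le_add_left (Nat.mul_le_mul_left 2 (sum_le_sum ?_)) _)
      intro x hx
      refine card_le_card ?_
      intro y hy
      simp only [mem_filter] at hy
      have hyf := hRs v hy.1
      simp only [farS, mem_filter, mem_univ, true_and] at hyf
      simp only [gapS, roomS, inS, outS, mem_inter, mem_sdiff, mem_erase, mem_filter, mem_univ,
        mem_insert, true_and, not_or]
      exact ⟨hy.1, ⟨hyf.1, hy.2.1, hy.2.2⟩, hyf.2.1⟩
    have := sum_le_sum (fun v (_ : v ∈ (univ : Finset V)) => hv v)
    simp only [sum_add_distrib, sum_const, card_univ, smul_eq_mul, ← mul_sum, ← e] at this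
    exact this
  -- each v in T x: missed vertices in T, and those with a two-step path are outside R v
  have hstep : ∀ x, ∀ v ∈ T x,
      G x v + ((T x).filter (fun y => y ≠ v ∧ ¬ A v y ∧
        ∃ w ∈ T x, A v w ∧ A w y)).card + 2 ≤ k := by
    intro x v hv
    have hd : Disjoint (R v ∩ gapS A x v) ((T x).filter (fun y => y ≠ v ∧ ¬ A v y ∧
        ∃ w ∈ T x, A v w ∧ A w y)) := by
      rw [disjoint_left]; intro y hy hy'
      have hyR := hRs v (mem_inter.mp hy).1
      simp only [farS, mem_filter, mem_univ, true_and] at hyR
      obtain ⟨w, -, h1, h2⟩ := (mem_filter.mp hy').2.2.2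
      exact hyR.2.2 ⟨w, h1, h2⟩
    have hs : (R v ∩ gapS A x v) ∪ ((T x).filter (fun y => y ≠ v ∧ ¬ A v y ∧
        ∃ w ∈ T x, A v w ∧ A w y)) ⊆ gapS A x v := by
      refine union_subset inter_subset_right ?_
      intro y hy
      simp only [mem_filter] at hy
      exact inner_le_gap hA (hTfar x) (by simp [hy.1, hy.2.1, hy.2.2.1])
    have := card_le_card hs
    rw [card_union_of_disjoint hd] at this
    have := hgap x v hv
    simp only [G]; omega
  have hinner : ∀ x, ∀ v ∈ T x,
      ((T x).filter (fun y => y ≠ v ∧ ¬ A v y)).card + 2 ≤ k := fun x v hv => by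
    have := card_le_card (inner_le_gap (v := v) hA (hTfar x))
    have := hgap x v hv; omega
  have hsize : ∀ x, (T x).card + 3 ≤ 2 * k ∨ (T x).card = 0 := by
    intro x
    rcases Nat.eq_zero_or_pos (T x).card with hz | hp
    · exact Or.inr hz
    left
    have h1 := pairs_le hA (T x)
    have h2 := sum_le_sum (hinner x)
    simp only [sum_add_distrib, sum_const, smul_eq_mul] at h2
    have : (T x).card * ((T x).card + 3) ≤ (T x).card * (2 * k) := by nlinarith
    exact Nat.le_of_mul_le_mul_left this hp
  have hpos : 0 < n := Fintype.card_pos
  have hG : ∀ x, ∑ v ∈ T x, G x v + 2 * (T x).card ≤ (T x).card * k := fun x => by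
    have := sum_le_sum (fun v hv => (show G x v + 2 ≤ k by have := hstep x v hv; omega) :
      ∀ v ∈ T x, G x v + 2 ≤ k)
    simp only [sum_add_distrib, sum_const, smul_eq_mul] at this
    omega
  have hk34 : k = 3 ∨ k = 4 := by omega
  rcases hk34 with rfl | rfl
  · -- k = 3
    have h2 : ∀ x, ∑ v ∈ T x, G x v ≤ 2 := by
      intro x
      have := hG x
      by_cases ht : (T x).card ≤ 2
      · omega
      have ht3 : (T x).card = 3 := by have := hsize x; omega
      have hz : ∀ v ∈ T x, G x v = 0 := by
        intro v hv
        have ho1 : ∀ v ∈ T x, ∃ w ∈ T x, A v w := by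
          intro v hv
          by_contra hn
          have hs : (T x).erase v ⊆ (T x).filter (fun y => y ≠ v ∧ ¬ A v y) := by
            intro y hy
            obtain ⟨h1, h2⟩ := mem_erase.mp hy
            exact mem_filter.mpr ⟨h2, h1, fun a => hn ⟨y, h2, a⟩⟩
          have := card_le_card hs; rw [card_erase_of_mem hv] at this
          have := hinner x v hv; omega
        have h2 : ((T x).filter (fun w => A v w)).card ≤ 2 := by
          have := card_le_card (show (T x).filter (fun w => A v w) ⊆ (T x).erase v from
            fun w hw => mem_erase.mpr ⟨fun e => irr hA v (e ▸ (mem_filter.mp hw).2),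
              (mem_filter.mp hw).1⟩)
          rw [card_erase_of_mem hv] at this; omega
        obtain ⟨y, hy, hy'⟩ := inner_path hA ho1 hv h2
        have : 0 < ((T x).filter (fun y => y ≠ v ∧ ¬ A v y ∧
            ∃ w ∈ T x, A v w ∧ A w y)).card := card_pos.mpr ⟨y, mem_filter.mpr ⟨hy, hy'⟩⟩
        have := hstep x v hv; omega
      rw [sum_eq_zero hz]; omega
    have := sum_le_sum (fun x (_ : x ∈ (univ : Finset V)) => h2 x)
    simp only [sum_const, card_univ, smul_eq_mul] at this
    omega
  · -- k = 4
    have h9 : ∀ x, (T x).card + ∑ v ∈ T x, G x v ≤ 9 := by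
      intro x
      have hg := hG x
      by_cases ht : (T x).card ≤ 3
      · omega
      have hs := hsize x
      have ho1 : ∀ v ∈ T x, ∃ w ∈ T x, A v w := by
        intro v hv
        by_contra hn
        have hsub : (T x).erase v ⊆ (T x).filter (fun y => y ≠ v ∧ ¬ A v y) := by
          intro y hy
          obtain ⟨h1, h2⟩ := mem_erase.mp hy
          exact mem_filter.mpr ⟨h2, h1, fun a => hn ⟨y, h2, a⟩⟩
        have := card_le_card hsub; rw [card_erase_of_mem hv] at this
        have := hinner x v hv; omega
      let big := (T x).filter (fun v => 3 ≤ ((T x).filter (fun w => A v w)).card)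
      rcases (show (T x).card = 4 ∨ (T x).card = 5 by omega) with h4 | h5
      · have hbig : big.card ≤ 1 := by
          rw [card_le_one]
          intro a ha b hb
          simp only [big, mem_filter] at ha hb
          by_contra hne
          have full : ∀ c ∈ T x, 3 ≤ ((T x).filter (fun w => A c w)).card →
              ∀ u ∈ T x, u ≠ c → A c u := by
            intro c hcT h3 u hu hne
            have e : (T x).filter (fun w => A c w) = (T x).erase c := by
              refine eq_of_subset_of_card_le (fun w hw => mem_erase.mpr
                ⟨fun e => irr hA c (e ▸ (mem_filter.mp hw).2), (mem_filter.mp hw).1⟩) ?_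
              rw [card_erase_of_mem hcT]; omega
            have : u ∈ (T x).filter (fun w => A c w) := e ▸ mem_erase.mpr ⟨hne, hu⟩
            exact (mem_filter.mp this).2
          exact hA _ _ (full a ha.1 ha.2 b hb.1 (Ne.symm hne)) (full b hb.1 hb.2 a ha.1 hne)
        have hle : ∀ v ∈ T x, G x v + 1 ≤ 2 + (if v ∈ big then 1 else 0) := by
          intro v hv
          have h0 := hstep x v hv
          split_ifs with hb
          · omega
          have hb' : ((T x).filter (fun w => A v w)).card ≤ 2 := by
            simp only [big, mem_filter, hv, true_and, not_le] at hb; omega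
          obtain ⟨y, hy, hy'⟩ := inner_path hA ho1 hv hb'
          have : 0 < ((T x).filter (fun y => y ≠ v ∧ ¬ A v y ∧
              ∃ w ∈ T x, A v w ∧ A w y)).card := card_pos.mpr ⟨y, mem_filter.mpr ⟨hy, hy'⟩⟩
          omega
        have := sum_le_sum hle
        simp only [sum_add_distrib, sum_const, smul_eq_mul, ← card_filter] at this
        have e : ((T x).filter (fun v => v ∈ big)).card ≤ big.card :=
          card_le_card (fun v hv => (mem_filter.mp hv).2)
        omega
      · -- five vertices: a regular tournament
        have h1 := pairs_le hA (T x)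
        rw [h5] at h1
        have hin2 : ∀ v ∈ T x, ((T x).filter (fun y => y ≠ v ∧ ¬ A v y)).card ≤ 2 :=
          fun v hv => by have := hinner x v hv; omega
        have heq : ∀ v ∈ T x, ((T x).filter (fun y => y ≠ v ∧ ¬ A v y)).card = 2 := by
          refine (sum_eq_sum_iff_of_le hin2).mp ?_
          have := sum_le_sum hin2
          simp only [sum_const, smul_eq_mul, h5] at this ⊢
          omega
        have h2out : ∀ v ∈ T x, ((T x).filter (fun w => A v w)).card ≤ 2 := by
          intro v hv
          have hd : Disjoint ((T x).filter (fun w => A v w))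
              ((T x).filter (fun y => y ≠ v ∧ ¬ A v y)) := by
            rw [disjoint_left]; intro w hw hw'
            exact (mem_filter.mp hw').2.2 (mem_filter.mp hw).2
          have hsub : (T x).filter (fun w => A v w) ∪
              (T x).filter (fun y => y ≠ v ∧ ¬ A v y) ⊆ (T x).erase v := by
            intro w hw
            simp only [mem_union, mem_filter] at hw
            rcases hw with ⟨h1, h2⟩ | ⟨h1, h2, -⟩
            · exact mem_erase.mpr ⟨fun e => irr hA v (e ▸ h2), h1⟩
            · exact mem_erase.mpr ⟨h2, h1⟩
          have := card_le_card hsub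
          rw [card_union_of_disjoint hd, card_erase_of_mem hv] at this
          have := heq v hv; omega
        have hout2 : ∀ v ∈ T x, ((T x).filter (fun w => A v w)).card = 2 := by
          intro v hv
          have hs : (T x).erase v ⊆ (T x).filter (fun w => A v w) ∪
              (T x).filter (fun y => y ≠ v ∧ ¬ A v y) := by
            intro w hw
            obtain ⟨h1, h2⟩ := mem_erase.mp hw
            by_cases a : A v w
            · exact mem_union_left _ (mem_filter.mpr ⟨h2, a⟩)
            · exact mem_union_right _ (mem_filter.mpr ⟨h2, h1, a⟩)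
          have := (card_le_card hs).trans (card_union_le _ _)
          rw [card_erase_of_mem hv] at this
          have := heq v hv; have := h2out v hv; omega
        have tour : ∀ a ∈ T x, ∀ b ∈ T x, b ≠ a → A a b ∨ A b a := by
          have hle : ∀ v ∈ T x, ((T x).filter (fun w => A v w ∨ A w v)).card ≤ 4 := by
            intro v hv
            have := card_le_card (show (T x).filter (fun w => A v w ∨ A w v) ⊆ (T x).erase v from
              fun w hw => by
                obtain ⟨h1, h2⟩ := mem_filter.mp hw
                refine mem_erase.mpr ⟨?_, h1⟩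
                rintro rfl
                exact h2.elim (irr hA w) (irr hA w))
            rw [card_erase_of_mem hv] at this; omega
          have hd : ∀ v ∈ T x, ((T x).filter (fun w => A v w ∨ A w v)).card
              = ((T x).filter (fun w => A v w)).card + ((T x).filter (fun w => A w v)).card := by
            intro v _
            rw [filter_or, card_union_of_disjoint]
            rw [disjoint_left]; intro w hw hw'
            exact hA _ _ (mem_filter.mp hw).2 (mem_filter.mp hw').2
          have hin : ∑ v ∈ T x, ((T x).filter (fun w => A w v)).card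
              = ∑ v ∈ T x, ((T x).filter (fun w => A v w)).card := by
            simp only [card_filter]; exact sum_comm
          have h4 : ∀ v ∈ T x, ((T x).filter (fun w => A v w ∨ A w v)).card = 4 := by
            refine (sum_eq_sum_iff_of_le hle).mp ?_
            rw [sum_congr rfl hd, sum_add_distrib, hin, sum_congr rfl hout2]
            simp [h5]
          intro a ha b hb hne
          have e : (T x).filter (fun w => A a w ∨ A w a) = (T x).erase a := by
            refine eq_of_subset_of_card_le (fun w hw => ?_) ?_
            · obtain ⟨h1, h2⟩ := mem_filter.mp hw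
              refine mem_erase.mpr ⟨?_, h1⟩
              rintro rfl
              exact h2.elim (irr hA w) (irr hA w)
            · rw [card_erase_of_mem ha, h4 a ha, h5]
          have : b ∈ (T x).filter (fun w => A a w ∨ A w a) := e ▸ mem_erase.mpr ⟨hne, hb⟩
          exact (mem_filter.mp this).2
        have hle : ∀ v ∈ T x, G x v = 0 := by
          intro v hv
          have hsub : (T x).filter (fun y => y ≠ v ∧ ¬ A v y) ⊆ (T x).filter (fun y => y ≠ v ∧
              ¬ A v y ∧ ∃ w ∈ T x, A v w ∧ A w y) := by
            intro y hy
            simp only [mem_filter] at hy ⊢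
            refine ⟨hy.1, hy.2.1, hy.2.2, ?_⟩
            by_contra hn
            have hyv : A y v := (tour v hv y hy.1 hy.2.1).resolve_left hy.2.2
            have hs : insert v ((T x).filter (fun w => A v w)) ⊆
                (T x).filter (fun w => A y w) := by
              intro w hw
              rcases mem_insert.mp hw with rfl | hw
              · exact mem_filter.mpr ⟨hv, hyv⟩
              · obtain ⟨h1, h2⟩ := mem_filter.mp hw
                refine mem_filter.mpr ⟨h1, (tour y hy.1 w h1 ?_).resolve_right
                  (fun a => hn ⟨w, h1, h2, a⟩)⟩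
                rintro rfl
                exact hy.2.2 h2
            have := card_le_card hs
            rw [card_insert_of_notMem (fun h => irr hA v (mem_filter.mp h).2), hout2 v hv,
              hout2 y hy.1] at this
            omega
          have := card_le_card hsub
          have := heq v hv
          have := hstep x v hv; omega
        rw [sum_eq_zero hle]; omega
    have := sum_le_sum (fun x (_ : x ∈ (univ : Finset V)) => h9 x)
    simp only [sum_add_distrib, sum_const, card_univ, smul_eq_mul] at this
    omega

end

end Vale.Agent.P038.Dense
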