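import Mathlib
import Vale.Agent.P038.Dense.Defs

namespace Vale.Agent.P038.Dense

open Set

noncomputable section

/-- Regular tournament on 2h+1 points with each point replaced by a copy of the digraph. -/
def blow {V : Type} (A : V → V → Prop) (h : ℕ) (p q : ZMod (2 * h + 1) × V) : Prop :=
  (p.1 = q.1 ∧ A p.2 q.2) ∨ (1 ≤ (q.1 - p.1).val ∧ (q.1 - p.1).val ≤ h)

variable {V : Type} (A : V → V → Prop) (h : ℕ)

theorem blow_oriented (hA : Oriented A) : Oriented (blow A h) := by
  rintro ⟨i, a⟩ ⟨j, b⟩ h1 h2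
  simp only [blow] at h1 h2
  rcases h1 with ⟨rfl, h1⟩ | ⟨h1, h1'⟩
  · rcases h2 with ⟨-, h2⟩ | ⟨h2, -⟩
    · exact hA _ _ h1 h2
    · simp at h2
  · rcases h2 with ⟨rfl, -⟩ | ⟨h2, h2'⟩
    · simp at h1
    · have hne : j - i ≠ 0 := fun e => by simp [e] at h1
      haveI : NeZero (j - i) := ⟨hne⟩
      rw [← neg_sub j i, ZMod.val_neg_of_ne_zero] at h2'
      omega

/-- Points at forward distance in a given range. -/
def band (i : ZMod (2 * h + 1)) (s : Set ℕ) : Set (ZMod (2 * h + 1)) := {j | (j - i).val ∈ s}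

theorem band_card (i : ZMod (2 * h + 1)) (a : ℕ) (ha : a + h ≤ 2 * h) :
    (band h i (Set.Icc (a + 1) (a + h))).ncard = h := by
  have e : band h i (Set.Icc (a + 1) (a + h))
      = (fun m : ℕ => i + (m : ZMod (2 * h + 1))) '' Set.Icc (a + 1) (a + h) := by
    ext j
    simp only [band, mem_setOf_eq, mem_image, mem_Icc]
    constructor
    · intro hj; exact ⟨(j - i).val, hj, by simp⟩
    · rintro ⟨m, hm, rfl⟩
      simp only [add_sub_cancel_left]
      rw [ZMod.val_natCast_of_lt (by omega)]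
      exact hm
  rw [e, InjOn.ncard_image]
  · rw [← Finset.coe_Icc, ncard_coe_finset, Nat.card_Icc]; omega
  · intro m hm m' hm' he
    have := congrArg ZMod.val (add_left_cancel he)
    simp only [mem_Icc] at hm hm'
    rwa [ZMod.val_natCast_of_lt (by omega), ZMod.val_natCast_of_lt (by omega)] at this

theorem blow_first [Fintype V] (i : ZMod (2 * h + 1)) (a : V) :
    (first (blow A h) (i, a)).ncard = (first A a).ncard + h * Fintype.card V := by
  have e : first (blow A h) (i, a)
      = ({i} ×ˢ first A a) ∪ (band h i (Set.Icc (0 + 1) (0 + h)) ×ˢ (univ : Set V)) := by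
    ext ⟨j, b⟩
    simp only [first, blow, band, mem_setOf_eq, mem_union, mem_prod, mem_singleton_iff, mem_univ,
      and_true, mem_Icc, zero_add]
    constructor
    · rintro (⟨rfl, hab⟩ | h1)
      · exact Or.inl ⟨rfl, hab⟩
      · exact Or.inr h1
    · rintro (⟨rfl, hab⟩ | h1)
      · exact Or.inl ⟨rfl, hab⟩
      · exact Or.inr h1
  have hd : Disjoint ({i} ×ˢ first A a)
      (band h i (Set.Icc (0 + 1) (0 + h)) ×ˢ (univ : Set V)) := by
    rw [Set.disjoint_left]
    rintro ⟨j, b⟩ ⟨rfl, -⟩ ⟨h1, -⟩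
    simp [band] at h1
  rw [e, ncard_union_eq hd, ncard_prod, ncard_prod, ncard_singleton, band_card h i 0 (by omega),
    ncard_univ, Nat.card_eq_fintype_card, one_mul]

theorem blow_second [Fintype V] (i : ZMod (2 * h + 1)) (a : V) :
    (second (blow A h) (i, a)).ncard ≤ (second A a).ncard + h * Fintype.card V := by
  have hs : second (blow A h) (i, a)
      ⊆ ({i} ×ˢ second A a) ∪ (band h i (Set.Icc (h + 1) (h + h)) ×ˢ (univ : Set V)) := by
    rintro ⟨j, b⟩ ⟨hne, hnA, ⟨k, c⟩, h1, h2⟩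
    by_cases hj : j = i
    · subst hj
      left
      refine ⟨rfl, ?_, ?_, ?_⟩
      · rintro rfl; exact hne rfl
      · exact fun hab => hnA (Or.inl ⟨rfl, hab⟩)
      · simp only [blow] at h1 h2
        rcases h1 with ⟨rfl, h1⟩ | ⟨h1, h1'⟩
        · rcases h2 with ⟨-, h2⟩ | ⟨h2, -⟩
          · exact ⟨c, h1, h2⟩
          · simp at h2
        · rcases h2 with ⟨rfl, -⟩ | ⟨h2, h2'⟩
          · simp at h1
          · have hne' : k - j ≠ 0 := fun e => by simp [e] at h1
            haveI : NeZero (k - j) := ⟨hne'⟩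
            rw [← neg_sub k j, ZMod.val_neg_of_ne_zero] at h2'
            omega
    · right
      refine ⟨?_, mem_univ _⟩
      have h0 : (j - i).val ≠ 0 := by
        rw [Ne, ZMod.val_eq_zero, sub_eq_zero]; exact hj
      have hlt := ZMod.val_lt (j - i)
      have hn : ¬ (1 ≤ (j - i).val ∧ (j - i).val ≤ h) := fun hh => hnA (Or.inr hh)
      simp only [band, mem_setOf_eq, mem_Icc]
      omega
  refine (ncard_le_ncard hs (Set.toFinite _)).trans ((ncard_union_le _ _).trans ?_)
  rw [ncard_prod, ncard_prod, ncard_singleton, band_card h i h (by omega), ncard_univ,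
    Nat.card_eq_fintype_card, one_mul]

theorem dense_suffices {ε : ℝ} (hε : 0 < ε) (hyp : DenseConjecture ε) : Conjecture := by
  intro V _ _ A hA
  obtain ⟨h, hh⟩ := exists_nat_ge (1 / ε)
  have hcond : (1 / 2 - ε) * (2 * (h : ℝ) + 1) ≤ h := by
    have : 1 ≤ (h : ℝ) * ε := by rwa [div_le_iff₀ hε] at hh
    nlinarith
  obtain ⟨⟨i, a⟩, ha⟩ := hyp (ZMod (2 * h + 1) × V) (blow A h) (blow_oriented A h hA) (by
    rintro ⟨i, a⟩
    rw [blow_first, Fintype.card_prod, ZMod.card]
    push_cast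
    have := mul_le_mul_of_nonneg_right hcond (Nat.cast_nonneg (α := ℝ) (Fintype.card V))
    have h0 : (0 : ℝ) ≤ ((first A a).ncard : ℝ) := Nat.cast_nonneg _
    nlinarith)
  refine ⟨a, ?_⟩
  unfold Good at ha ⊢
  rw [blow_first] at ha
  have := blow_second A h i a
  omega

end

end Vale.Agent.P038.Dense
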